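import Vale.Agent.P295.H567.Defs

/-!
P295: systems of coordinates in polynomial rings over `A` when `A[w]` is a polynomial ring.
-/

open MvPolynomial

namespace Vale.Agent.P295.H567

universe u v

section general

variable {R : Type u} [CommRing R] {A : Type v} [CommRing A] [Algebra R A]

theorem IsPartOfSystem.comp {n : ℕ} {ι κ : Type} {f : ι → MvPolynomial (Fin n) R}
    (h : IsPartOfSystem f) (j : κ ↪ ι) : IsPartOfSystem (fun k => f (j k)) := by
  obtain ⟨s, e, he⟩ := h
  exact ⟨j.trans s, e, fun i => he (j i)⟩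

/-- a proper subfamily of the variables of `A[σ] = R[x_1..x_n]` is part of a coordinate system -/
theorem sub_system {σ : Type} [Fintype σ] {n l : ℕ} (hn : n = l + Fintype.card σ)
    (E : MvPolynomial σ A ≃ₐ[R] MvPolynomial (Fin n) R)
    (E1 : Polynomial A ≃ₐ[R] MvPolynomial (Fin (l + 1)) R)
    (S : Set σ) (hS : S ≠ Set.univ) : IsPartOfSystem (fun i : S => E (X i.1)) := by
  classical
  have hne : (Sᶜ : Set σ).Nonempty := Set.nonempty_compl.2 hS
  obtain ⟨t, ht⟩ : ∃ t, Fintype.card (Sᶜ : Set σ) = t + 1 := by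
    have : 0 < Fintype.card (Sᶜ : Set σ) := by
      rw [Fintype.card_pos_iff]
      exact hne.to_subtype
    exact ⟨_, (Nat.succ_pred_eq_of_pos this).symm⟩
  have hcard : Fintype.card S + (t + 1) = Fintype.card σ := by
    rw [← ht, ← Fintype.card_sum]
    exact Fintype.card_congr (Equiv.Set.sumCompl S)
  let g : (Sᶜ : Set σ) ≃ Option (Fin t) := Fintype.equivOfCardEq (by simp [ht])
  let G1 : MvPolynomial σ A ≃ₐ[A] MvPolynomial (S ⊕ Option (Fin t)) A :=
    renameEquiv A ((Equiv.Set.sumCompl S).symm.trans (Equiv.sumCongr (Equiv.refl _) g))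
  let G2 : MvPolynomial (S ⊕ Option (Fin t)) A ≃ₐ[A]
      MvPolynomial S (MvPolynomial (Option (Fin t)) A) := sumAlgEquiv A _ _
  let T1 : MvPolynomial (Option (Fin t)) A ≃ₐ[A] MvPolynomial (Fin t) (Polynomial A) :=
    optionEquivRight A (Fin t)
  let T2 : MvPolynomial (Fin t) (Polynomial A) ≃ₐ[R]
      MvPolynomial (Fin t) (MvPolynomial (Fin (l + 1)) R) := mapAlgEquiv (Fin t) E1
  let T3 := (sumAlgEquiv R (Fin t) (Fin (l + 1))).symm
  let T : MvPolynomial (Option (Fin t)) A ≃ₐ[R] MvPolynomial (Fin t ⊕ Fin (l + 1)) R :=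
    ((T1.restrictScalars R).trans T2).trans T3
  let G3 : MvPolynomial S (MvPolynomial (Option (Fin t)) A) ≃ₐ[R]
      MvPolynomial S (MvPolynomial (Fin t ⊕ Fin (l + 1)) R) := mapAlgEquiv S T
  let G4 := (sumAlgEquiv R S (Fin t ⊕ Fin (l + 1))).symm
  let G : MvPolynomial σ A ≃ₐ[R] MvPolynomial (S ⊕ (Fin t ⊕ Fin (l + 1))) R :=
    (((G1.restrictScalars R).trans (G2.restrictScalars R)).trans G3).trans G4
  have hG : ∀ i : S, G (X i.1) = X (Sum.inl i) := by
    intro i
    have h1 : G1 (X i.1) = X (Sum.inl i) := by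
      change renameEquiv A _ (X i.1) = _
      rw [renameEquiv_apply, rename_X]
      congr 1
      simp [Equiv.Set.sumCompl_symm_apply_of_mem i.2]
    have h2 : G2 (X (Sum.inl i)) = X i := sumAlgEquiv_X_inl _ _ _ _
    have h3 : G3 (X i) = X i := by
      change mapAlgEquiv S T (X i) = _
      simp
    have h4 : G4 (X i) = X (Sum.inl i) := by
      change (sumAlgEquiv R S (Fin t ⊕ Fin (l + 1))).symm (X i) = _
      rw [AlgEquiv.symm_apply_eq]
      exact (sumAlgEquiv_X_inl _ _ _ _).symm
    change G4 (G3 (G2 (G1 (X i.1)))) = _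
    rw [h1, h2, h3, h4]
  let w : S ⊕ (Fin t ⊕ Fin (l + 1)) ≃ Fin n := Fintype.equivOfCardEq (by
    simp only [Fintype.card_sum, Fintype.card_fin]
    omega)
  refine ⟨⟨fun i => w (Sum.inl i), fun i j hij => by simpa using hij⟩,
    (E.symm.trans G).trans (renameEquiv R w), fun i => ?_⟩
  change renameEquiv R w (G (E.symm (E (X i.1)))) = X (w (Sum.inl i))
  rw [AlgEquiv.symm_apply_apply, hG, renameEquiv_apply, rename_X]

/-- the automorphism of `A[σ]` extending an automorphism of `R[σ]` -/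
theorem exists_ext {σ : Type} (φ : MvPolynomial σ R ≃ₐ[R] MvPolynomial σ R) :
    ∃ Φ : MvPolynomial σ A ≃ₐ[R] MvPolynomial σ A,
      ∀ p : MvPolynomial σ R, Φ (map (algebraMap R A) p) = map (algebraMap R A) (φ p) := by
  let ι : MvPolynomial σ R →ₐ[R] MvPolynomial σ A := mapAlgHom (Algebra.ofId R A)
  have hι : ∀ p, ι p = map (algebraMap R A) p := fun p => rfl
  let F (ψ : MvPolynomial σ R ≃ₐ[R] MvPolynomial σ R) : MvPolynomial σ A →ₐ[A] MvPolynomial σ A :=
    aeval fun i => ι (ψ (X i))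
  have hF : ∀ ψ p, F ψ (ι p) = ι (ψ p) := by
    intro ψ p
    have h : ((F ψ).restrictScalars R).comp ι = ι.comp ψ.toAlgHom := by
      apply MvPolynomial.algHom_ext
      intro i
      change F ψ (ι (X i)) = ι (ψ (X i))
      have : ι (X i) = X i := by rw [hι, map_X]
      rw [this]
      exact aeval_X _ i
    exact DFunLike.congr_fun h p
  have hinv : ∀ ψ χ : MvPolynomial σ R ≃ₐ[R] MvPolynomial σ R, (∀ p, ψ (χ p) = p) →
      (F ψ).comp (F χ) = AlgHom.id A _ := by
    intro ψ χ h
    apply MvPolynomial.algHom_ext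
    intro i
    change F ψ (F χ (X i)) = X i
    have : F χ (X i) = ι (χ (X i)) := aeval_X _ i
    rw [this, hF, h, hι, map_X]
  refine ⟨(AlgEquiv.ofAlgHom (F φ) (F φ.symm) (hinv _ _ fun p => φ.apply_symm_apply p)
    (hinv _ _ fun p => φ.symm_apply_apply p)).restrictScalars R, fun p => ?_⟩
  exact hF φ p

/-- the image of `R[σ]` in `A[σ] = R[x_1..x_n]` -/
theorem apply_map {σ : Type} {n : ℕ} (E : MvPolynomial σ A ≃ₐ[R] MvPolynomial (Fin n) R)
    (p : MvPolynomial σ R) :
    E (map (algebraMap R A) p) = aeval (fun j => E (X j)) p := by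
  let ι : MvPolynomial σ R →ₐ[R] MvPolynomial σ A := mapAlgHom (Algebra.ofId R A)
  have h : E.toAlgHom.comp ι = aeval (fun j => E (X j)) := by
    apply MvPolynomial.algHom_ext
    intro i
    change E (ι (X i)) = _
    have : ι (X i) = X i := map_X _ _
    rw [this, aeval_X]
  exact DFunLike.congr_fun h p

/-- proper subfamilies of the transforms of the variables -/
theorem sub_system_aut {σ : Type} [Fintype σ] {n l : ℕ} (hn : n = l + Fintype.card σ)
    (E : MvPolynomial σ A ≃ₐ[R] MvPolynomial (Fin n) R)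
    (E1 : Polynomial A ≃ₐ[R] MvPolynomial (Fin (l + 1)) R)
    (φ : MvPolynomial σ R ≃ₐ[R] MvPolynomial σ R)
    (S : Set σ) (hS : S ≠ Set.univ) :
    IsPartOfSystem (fun i : S => aeval (fun j => E (X j)) (φ (X i.1))) := by
  obtain ⟨Φ, hΦ⟩ := exists_ext (A := A) φ
  have h := sub_system hn (Φ.trans E) E1 S hS
  have h2 : (fun i : S => (Φ.trans E) (X i.1)) =
      fun i : S => aeval (fun j => E (X j)) (φ (X i.1)) := by
    funext i
    change E (Φ (X i.1)) = _
    have : (X i.1 : MvPolynomial σ A) = map (algebraMap R A) (X i.1) := by rw [map_X]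
    rw [this, hΦ, apply_map]
  rwa [h2] at h

/-- `R[x_0..x_n] = R[x_0..x_{n-1}][x_n]` -/
theorem exists_last (n : ℕ) : ∃ L : MvPolynomial (Fin (n + 1)) R ≃ₐ[R]
    Polynomial (MvPolynomial (Fin n) R),
    ∀ p, L (rename (Fin.castAdd 1) p) = Polynomial.C p := by
  refine ⟨(renameEquiv R (finRotate (n + 1))).trans (finSuccEquiv R n), fun p => ?_⟩
  have h : (((renameEquiv R (finRotate (n + 1))).trans (finSuccEquiv R n)).toAlgHom.comp
      (rename (Fin.castAdd 1) : MvPolynomial (Fin n) R →ₐ[R] _)) =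
      Polynomial.CAlgHom := by
    apply MvPolynomial.algHom_ext
    intro i
    have h1 : finRotate (n + 1) (Fin.castAdd 1 i) = i.succ := by
      rw [finRotate_apply]
      exact Fin.coeSucc_eq_succ
    simp only [AlgHom.comp_apply, rename_X]
    change finSuccEquiv R n (renameEquiv R (finRotate (n + 1)) (X (Fin.castAdd 1 i))) = _
    rw [renameEquiv_apply, rename_X, h1, finSuccEquiv_X_succ]
    rfl
  exact DFunLike.congr_fun h p

/-- all the variables of `A[σ] = R[x_1..x_n]` are part of a coordinate system of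
`R[x_1..x_{n+1}]` -/
theorem stable_system {σ : Type} [Fintype σ] {n l : ℕ} (hn : n = l + Fintype.card σ)
    (E : MvPolynomial σ A ≃ₐ[R] MvPolynomial (Fin n) R)
    (E1 : Polynomial A ≃ₐ[R] MvPolynomial (Fin (l + 1)) R) :
    IsPartOfSystem (fun i : σ =>
      (rename (Fin.castAdd 1) (E (X i)) : MvPolynomial (Fin (n + 1)) R)) := by
  classical
  obtain ⟨L, hL⟩ := exists_last (R := R) n
  let E' : MvPolynomial (Option σ) A ≃ₐ[R] MvPolynomial (Fin (n + 1)) R :=
    (((optionEquivLeft A σ).restrictScalars R).trans (Polynomial.mapAlgEquiv E)).trans L.symm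
  have hE' : ∀ i : σ, E' (X (some i)) = rename (Fin.castAdd 1) (E (X i)) := by
    intro i
    change L.symm (Polynomial.mapAlgEquiv E (optionEquivLeft A σ (X (some i)))) = _
    rw [optionEquivLeft_X_some, AlgEquiv.symm_apply_eq, hL]
    simp
  have h := sub_system (n := n + 1) (l := l) (by rw [Fintype.card_option]; omega) E' E1
    (Set.range some) (by
      intro h
      have : (none : Option σ) ∈ Set.range some := h ▸ Set.mem_univ _
      simp at this)
  have h2 := IsPartOfSystem.comp h ⟨fun i : σ => (⟨some i, i, rfl⟩ : Set.range (some : σ → Option σ)),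
    fun i j hij => Option.some_injective _ (congrArg Subtype.val hij)⟩
  have h3 : (fun k : σ => E' (X ((⟨some k, k, rfl⟩ : Set.range (some : σ → Option σ))).1)) =
      fun i : σ => (rename (Fin.castAdd 1) (E (X i)) : MvPolynomial (Fin (n + 1)) R) :=
    funext fun i => hE' i
  rw [← h3]
  exact h2

/-- `A[σ]/(X_i - a_i) = A` -/
theorem quot_equiv {σ : Type} (a : σ → A) :
    Nonempty ((MvPolynomial σ A ⧸ Ideal.span (Set.range fun i => X i - C (a i))) ≃ₐ[A] A) := by
  set J : Ideal (MvPolynomial σ A) := Ideal.span (Set.range fun i => X i - C (a i)) with hJ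
  have h0 : ∀ p ∈ J, (aeval a : MvPolynomial σ A →ₐ[A] A) p = 0 := by
    intro p hp
    have : J ≤ RingHom.ker (aeval a : MvPolynomial σ A →ₐ[A] A) := by
      rw [hJ, Ideal.span_le]
      rintro _ ⟨i, rfl⟩
      change (aeval a : MvPolynomial σ A →ₐ[A] A) (X i - C (a i)) = 0
      simp
    exact this hp
  let F : (MvPolynomial σ A ⧸ J) →ₐ[A] A := Ideal.Quotient.liftₐ J (aeval a) h0
  refine ⟨AlgEquiv.ofAlgHom F (Algebra.ofId A _) (Subsingleton.elim _ _) ?_⟩
  apply Ideal.Quotient.algHom_ext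
  apply MvPolynomial.algHom_ext
  intro i
  change algebraMap A (MvPolynomial σ A ⧸ J) (F (Ideal.Quotient.mk J (X i))) =
    Ideal.Quotient.mk J (X i)
  have h1 : F (Ideal.Quotient.mk J (X i)) = a i := by
    change (aeval a : MvPolynomial σ A →ₐ[A] A) (X i) = a i
    simp
  rw [h1]
  change Ideal.Quotient.mk J (C (a i)) = _
  rw [eq_comm, Ideal.Quotient.eq]
  exact Ideal.subset_span ⟨i, rfl⟩

/-- the fibres of the variables in `A[σ] = R[x_1..x_n]` -/
theorem fibre_equiv {m n : ℕ} (E : MvPolynomial (Fin m) A ≃ₐ[R] MvPolynomial (Fin n) R)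
    (c : Fin m → R) : Nonempty (SystemFibre (fun i => E (X i)) c ≃ₐ[R] A) := by
  have h : Ideal.span (Set.range fun i => E (X i) - C (c i)) =
      Ideal.map (E : MvPolynomial (Fin m) A →+* MvPolynomial (Fin n) R)
        (Ideal.span (Set.range fun i => X i - C (algebraMap R A (c i)))) := by
    rw [Ideal.map_span, ← Set.range_comp]
    congr 2
    funext i
    change _ = E (X i - C (algebraMap R A (c i)))
    have h2 : (C (algebraMap R A (c i)) : MvPolynomial (Fin m) A) =
        algebraMap R (MvPolynomial (Fin m) A) (c i) := rfl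
    rw [map_sub, h2, AlgEquiv.commutes]
    rfl
  obtain ⟨q⟩ := quot_equiv (A := A) fun i => algebraMap R A (c i)
  exact ⟨((Ideal.quotientEquivAlg _ _ E h).symm).trans (q.restrictScalars R)⟩

/-- the fibres of a part of a coordinate system are affine spaces -/
theorem fibre_of_system {m n l : ℕ} (hn : n = l + m) {f : Fin m → MvPolynomial (Fin n) R}
    (h : IsPartOfSystem f) (c : Fin m → R) :
    Nonempty (SystemFibre f c ≃ₐ[R] MvPolynomial (Fin l) R) := by
  classical
  obtain ⟨s, e, he⟩ := h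
  have hT : Fintype.card ((Set.range s)ᶜ : Set (Fin n)) = l := by
    rw [Fintype.card_compl_set, Fintype.card_fin]
    rw [← Set.toFinset_card, Set.toFinset_range, Finset.card_image_of_injective _ s.injective]
    simp
    omega
  let g : ((Set.range s)ᶜ : Set (Fin n)) ≃ Fin l := Fintype.equivFinOfCardEq hT
  let w : Fin n ≃ Fin m ⊕ Fin l := (Equiv.Set.sumCompl (Set.range s)).symm.trans
    (Equiv.sumCongr (Equiv.ofInjective s s.injective).symm g)
  have hw : ∀ i, w (s i) = Sum.inl i := by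
    intro i
    change (Equiv.sumCongr (Equiv.ofInjective s s.injective).symm g)
      ((Equiv.Set.sumCompl (Set.range s)).symm (s i)) = _
    rw [Equiv.Set.sumCompl_symm_apply_of_mem (Set.mem_range_self i)]
    simp only [Equiv.sumCongr_apply, Sum.map_inl, Sum.inl.injEq]
    rw [Equiv.symm_apply_eq]
    rfl
  let M : MvPolynomial (Fin n) R ≃ₐ[R] MvPolynomial (Fin m) (MvPolynomial (Fin l) R) :=
    (renameEquiv R w).trans (sumAlgEquiv R (Fin m) (Fin l))
  have hM : ∀ i, M (X (s i)) = X i := by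
    intro i
    change sumAlgEquiv R (Fin m) (Fin l) (renameEquiv R w (X (s i))) = _
    rw [renameEquiv_apply, rename_X, hw, sumAlgEquiv_X_inl]
  let E : MvPolynomial (Fin m) (MvPolynomial (Fin l) R) ≃ₐ[R] MvPolynomial (Fin n) R :=
    M.symm.trans e.symm
  have hE : (fun i => E (X i)) = f := by
    funext i
    change e.symm (M.symm (X i)) = f i
    rw [← hM, AlgEquiv.symm_apply_apply, ← he, AlgEquiv.symm_apply_apply]
  have := fibre_equiv E c
  rwa [hE] at this

/-- `A[x_1..x_{m+1}]` is a polynomial ring if `A[x]` is -/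
theorem exists_poly {l : ℕ} (E1 : Polynomial A ≃ₐ[R] MvPolynomial (Fin (l + 1)) R) (m : ℕ) :
    Nonempty (MvPolynomial (Fin (m + 1)) A ≃ₐ[R] MvPolynomial (Fin (l + (m + 1))) R) := by
  classical
  let g : Fin (m + 1) ≃ Option (Fin m) := Fintype.equivOfCardEq (by simp)
  let w : Fin m ⊕ Fin (l + 1) ≃ Fin (l + (m + 1)) := Fintype.equivOfCardEq (by
    simp only [Fintype.card_sum, Fintype.card_fin]
    omega)
  let T1 : MvPolynomial (Fin (m + 1)) A ≃ₐ[A] MvPolynomial (Fin m) (Polynomial A) :=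
    (renameEquiv A g).trans (optionEquivRight A (Fin m))
  exact ⟨((T1.restrictScalars R).trans (mapAlgEquiv (Fin m) E1)).trans
    ((sumAlgEquiv R (Fin m) (Fin (l + 1))).symm.trans (renameEquiv R w))⟩

end general

end Vale.Agent.P295.H567
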