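import Vale.Agent.P295.MathlibUsed

/-!
P295: parts of coordinate systems over an arbitrary commutative base ring.
-/

open MvPolynomial

namespace Vale.Agent.P295

universe u

/-- the family `f i`, `i ∈ ι`, of elements of `R[x_1..x_n]` is part of a coordinate system:
some `R`-algebra automorphism of `R[x_1..x_n]` sends the `f i` to distinct variables -/
def IsPartOfSystem {R : Type u} [CommRing R] {n : ℕ} {ι : Type}
    (f : ι → MvPolynomial (Fin n) R) : Prop :=
  ∃ (s : ι ↪ Fin n) (e : MvPolynomial (Fin n) R ≃ₐ[R] MvPolynomial (Fin n) R),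
    ∀ i, e (f i) = X (s i)

/-- the fibre `R[x_1..x_n]/(f_1 - c_1, ..., f_m - c_m)` of the map `f` over the point `c` -/
abbrev SystemFibre {R : Type u} [CommRing R] {n m : ℕ} (f : Fin m → MvPolynomial (Fin n) R)
    (c : Fin m → R) : Type u :=
  MvPolynomial (Fin n) R ⧸ Ideal.span (Set.range fun i => f i - C (c i))

/-- every fibre of `f` times the line is the affine space of dimension `n - m + 1` over `R` -/
def SystemFibresTimesLineTrivial {R : Type u} [CommRing R] {n m : ℕ}
    (f : Fin m → MvPolynomial (Fin n) R) : Prop :=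
  ∀ c : Fin m → R, Nonempty (Polynomial (SystemFibre f c) ≃ₐ[R] MvPolynomial (Fin (n - m + 1)) R)

/-- some fibre of `f` is the affine space of dimension `n - m` over `R` -/
def HasTrivialSystemFibre {R : Type u} [CommRing R] {n m : ℕ}
    (f : Fin m → MvPolynomial (Fin n) R) : Prop :=
  ∃ c : Fin m → R, Nonempty (SystemFibre f c ≃ₐ[R] MvPolynomial (Fin (n - m)) R)

end Vale.Agent.P295
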