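import Vale.Agent.P293.H303.Main
import Vale.Agent.P295.U165.Univ
import Vale.Agent.P295.H567.Alg

/-!
P295: systems of `m` polynomials which are stably part of a coordinate system and not part of a
coordinate system, although every proper subsystem is.
-/

open MvPolynomial TensorProduct

namespace Vale.Agent.P295.H567

universe u v

/-- base change of an isomorphism `A[x_1..x_m] = ℚ[y_1..y_n]`, with the variables -/
theorem base_change {A : Type} [CommRing A] [Algebra ℚ A] {m n : ℕ}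
    (e : MvPolynomial (Fin m) A ≃ₐ[ℚ] MvPolynomial (Fin n) ℚ)
    (R : Type v) [CommRing R] [Algebra ℚ R] :
    ∃ e' : MvPolynomial (Fin m) (R ⊗[ℚ] A) ≃ₐ[R] MvPolynomial (Fin n) R,
      ∀ i, e' (X i) = map (algebraMap ℚ R) (e (X i)) := by
  let e1 : MvPolynomial (Fin m) (R ⊗[ℚ] A) ≃ₐ[R] (R ⊗[ℚ] A) ⊗[ℚ] MvPolynomial (Fin m) ℚ :=
    ((MvPolynomial.algebraTensorAlgEquiv ℚ (R ⊗[ℚ] A)).symm).restrictScalars R
  let e2 : (R ⊗[ℚ] A) ⊗[ℚ] MvPolynomial (Fin m) ℚ ≃ₐ[R] R ⊗[ℚ] (A ⊗[ℚ] MvPolynomial (Fin m) ℚ) :=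
    Algebra.TensorProduct.assoc ℚ ℚ R R A (MvPolynomial (Fin m) ℚ)
  let e0 : A ⊗[ℚ] MvPolynomial (Fin m) ℚ ≃ₐ[A] MvPolynomial (Fin m) A :=
    MvPolynomial.algebraTensorAlgEquiv ℚ A
  let e0' : A ⊗[ℚ] MvPolynomial (Fin m) ℚ ≃ₐ[ℚ] MvPolynomial (Fin m) A := e0.restrictScalars ℚ
  let e3 : R ⊗[ℚ] (A ⊗[ℚ] MvPolynomial (Fin m) ℚ) ≃ₐ[R] R ⊗[ℚ] MvPolynomial (Fin n) ℚ :=
    Algebra.TensorProduct.congr AlgEquiv.refl (e0'.trans e)
  refine ⟨((e1.trans e2).trans e3).trans (MvPolynomial.algebraTensorAlgEquiv ℚ R), fun i => ?_⟩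
  have h1 : e1 (X i) = 1 ⊗ₜ X i := by
    change (MvPolynomial.algebraTensorAlgEquiv ℚ (R ⊗[ℚ] A)).symm (X i) = _
    rw [AlgEquiv.symm_apply_eq, MvPolynomial.algebraTensorAlgEquiv_tmul, one_smul, map_X]
  have h2 : e2 (1 ⊗ₜ X i) = 1 ⊗ₜ (1 ⊗ₜ X i) := rfl
  have h3 : e3 (1 ⊗ₜ (1 ⊗ₜ X i)) = 1 ⊗ₜ (e (X i)) := by
    change (1 : R) ⊗ₜ[ℚ] (e (e0 (1 ⊗ₜ X i))) = _
    rw [MvPolynomial.algebraTensorAlgEquiv_tmul, one_smul, map_X]
  change MvPolynomial.algebraTensorAlgEquiv ℚ R (e3 (e2 (e1 (X i)))) = _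
  rw [h1, h2, h3, MvPolynomial.algebraTensorAlgEquiv_tmul, one_smul]

/-- the properties of the variables of `A[x_1..x_m]`, over one base ring -/
theorem system_aux {R : Type u} [CommRing R] {A : Type v} [CommRing A] [Algebra R A] {m n l : ℕ}
    (hn : n = l + m) (E : MvPolynomial (Fin m) A ≃ₐ[R] MvPolynomial (Fin n) R)
    (E1 : Polynomial A ≃ₐ[R] MvPolynomial (Fin (l + 1)) R)
    (hA : Nontrivial R → ¬ Nonempty (A ≃ₐ[R] MvPolynomial (Fin l) R))
    (g : Fin m → MvPolynomial (Fin n) R) (hg : ∀ i, g i = E (X i)) :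
      IsPartOfSystem (fun i => (rename (Fin.castAdd 1) (g i) : MvPolynomial (Fin (n + 1)) R)) ∧
      (∀ (φ : MvPolynomial (Fin m) R ≃ₐ[R] MvPolynomial (Fin m) R) (S : Set (Fin m)),
        S ≠ Set.univ → IsPartOfSystem fun i : S => aeval g (φ (X i.1))) ∧
      SystemFibresTimesLineTrivial g ∧
      (Nontrivial R → ¬ IsPartOfSystem g ∧ ¬ HasTrivialSystemFibre g) := by
  obtain rfl : g = fun i => E (X i) := funext hg
  have hcard : n = l + Fintype.card (Fin m) := by simpa using hn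
  have hd : n - m = l := by omega
  have key : ∀ c : Fin m → R, Nontrivial R →
      ¬ Nonempty (SystemFibre (fun i => E (X i)) c ≃ₐ[R] MvPolynomial (Fin l) R) := by
    rintro c hR ⟨g⟩
    obtain ⟨a⟩ := fibre_equiv E c
    exact hA hR ⟨a.symm.trans g⟩
  refine ⟨stable_system hcard E E1, fun φ S hS => sub_system_aut hcard E E1 φ S hS,
    fun c => ?_, fun hR => ⟨fun h => key 0 hR (fibre_of_system hn h 0), fun ⟨c, hc⟩ => ?_⟩⟩
  · rw [hd]
    obtain ⟨a⟩ := fibre_equiv E c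
    exact ⟨(Polynomial.mapAlgEquiv a).trans E1⟩
  · rw [hd] at hc
    exact key c hR hc

/-- **the universal systems** -/
theorem systems (m n : ℕ) (hm : 1 ≤ m) (hn : m + 4 ≤ n) :
    ∃ f : Fin m → MvPolynomial (Fin n) ℚ, ∀ (R : Type u) [CommRing R] [Algebra ℚ R],
      IsPartOfSystem (fun i =>
        (rename (Fin.castAdd 1) (extend R (f i)) : MvPolynomial (Fin (n + 1)) R)) ∧
      (∀ (φ : MvPolynomial (Fin m) R ≃ₐ[R] MvPolynomial (Fin m) R) (S : Set (Fin m)),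
        S ≠ Set.univ →
          IsPartOfSystem fun i : S => aeval (fun j => extend R (f j)) (φ (X i.1))) ∧
      SystemFibresTimesLineTrivial (fun i => extend R (f i)) ∧
      (Nontrivial R → (¬ IsPartOfSystem fun i => extend R (f i)) ∧
        ¬ HasTrivialSystemFibre fun i => extend R (f i)) := by
  obtain ⟨m', rfl⟩ : ∃ m', m = m' + 1 := ⟨m - 1, by omega⟩
  obtain ⟨k, rfl⟩ : ∃ k, n = 4 + k + (m' + 1) := ⟨n - (m' + 1) - 4, by omega⟩
  obtain ⟨E1⟩ := Vale.Agent.P293.H303.polyAQ k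
  obtain ⟨E⟩ := exists_poly E1 m'
  refine ⟨fun i => E (X i), fun R _ _ => ?_⟩
  obtain ⟨E', hE'⟩ := base_change E R
  obtain ⟨E1', -⟩ := Vale.Agent.P295.U165.stable_R E1 R
  exact system_aux rfl E' E1' (fun _ => Vale.Agent.P293.H303.not_affine_R k R)
    (fun i => extend R (E (X i))) fun i => (hE' i).symm

end Vale.Agent.P295.H567
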